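import Vale.Agent.P305O.Eps
import Vale.Agent.P305R.Route
import Vale.Agent.P305BD.Fin
import Vale.Agent.P305M.Top
import Vale.Agent.P305I.Par
import Vale.Agent.P305LC.Name
import Vale.Agent.P305LC.Loc
import Vale.Agent.P305N.Main
import Vale.Agent.P305KY.Keys
import Vale.Agent.P305RM.Main
import Vale.Agent.P305CT.Main
import Vale.Agent.P305SC.Slots
import Vale.Agent.P305IN.Init
import Vale.Agent.P305FL.Main
import Vale.Agent.P305BG.Bridge
import Vale.Agent.P305EN.Main
import Vale.Agent.P305PR.Main
import Vale.Agent.P305SP.Step
import Vale.Agent.P305GM.Loop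
import Vale.Agent.P305GM.Wrap

/-!
# All blocks together: one phase of the matching algorithm in almost linear time
-/

namespace Vale.Agent.P305Z

/-- The throttle box. -/
theorem box : P305LC.BOX False :=
  P305LC.named (P305I.box_of_eng (P305M.eng_of_build (P305BD.build P305R.route)))

/-- Bridges between two nodes. -/
theorem bridge : P305GL.BRIDGE :=
  P305BG.bridge_of (P305RM.prune P305KY.keys) (P305RM.commit P305KY.keys)
    (P305CT.contract_ok P305KY.keys) P305SC.slots_blk (P305FL.flush_ok (P305RM.prune P305KY.keys))

/-- One phase. -/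
theorem phase : ∃ ph c g, P305O.PhaseOK ph c g fun b n _ => (n + 1) * g b :=
  P305GM.phase_of_run (P305GM.run_ok (P305IN.init P305SC.slots_blk)
    (P305SP.step (P305PR.pair P305SC.slots_blk) bridge) P305EN.final P305EN.stall) box
    (P305N.net (P305LC.loc box))

end Vale.Agent.P305Z
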