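import Vale.Agent.P305R.Level
import Vale.Agent.P305R.Rounds
import Vale.Agent.P305R.Main
import Vale.Agent.P305BD.Fin
import Vale.Agent.P305M.Top
import Vale.Agent.P305I.Par
import Vale.Agent.P305LC.Name
import Vale.Agent.P305LC.Loc
import Vale.Agent.P305N.Main

/-!
# The engine: everything below the matching driver
-/

namespace Vale.Agent.P305Z

theorem route : P305R.ROUTE := P305R.main (P305R.level P305R.rounds)

theorem eng : P305M.ENG := P305M.eng_of_build (P305BD.build route)

theorem box : P305LC.BOX False := P305LC.named (P305I.box_of_eng eng)

theorem net : P305N.NET := P305N.net (P305LC.loc box)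

end Vale.Agent.P305Z
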